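import Vale.Agent.P032.H892.Cross

/-!
# P032: set rules of the wild frame `Irr U T` (no germs, no regularity)

* `pair_single` (2C, pointwise): `T y, T t ⊆ {i, j}`, `|y - t| = 1`: both palettes are single and opposite.
* `curtain`, `curtain'`, `curtain_shift`: a connected set with list `{i, j}` is monochromatic as soon as every point
  of it has a point with list `{i, j}` at distance one.
* `swap_arc`, `swap`: a point `V` with the colours `i, j` and a point `y` of `S(V)` with list `{i, j}`: exact arc at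
  `y`, and no other point of `S(q)`, `q` near `y` on `S(V)`, has `i` or `j`.
* `att`: attached sets.
-/

open Set Filter Topology Metric

noncomputable section

namespace Vale.Agent.P032.H877

open Vale.Agent.P032.Six Vale.Agent.P032.S5.H767 Vale.Agent.P032.H892

variable {k : ℕ} {U : Fin k → Set ℂ} {T : ℂ → Set (Fin k)}

/-- at most two colours -/
theorem ncard_pair_le (i j : Fin k) {s : Set (Fin k)} (h : s ⊆ {i, j}) : s.ncard ≤ 2 :=
  (Set.ncard_le_ncard h (Set.toFinite _)).trans ((Set.ncard_insert_le i {j}).trans (by rw [Set.ncard_singleton]))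

/-- **(2C), pointwise**: two points at distance one with lists inside `{i, j}` have single, different colours. -/
theorem pair_single (h : Irr U T) {i j : Fin k} {y t : ℂ} (hy : T y ⊆ {i, j}) (ht : T t ⊆ {i, j})
    (hd : dist y t = 1) : (T y = {i} ∧ T t = {j}) ∨ (T y = {j} ∧ T t = {i}) := by
  have c1 : (T y).ncard ≤ 3 := (ncard_pair_le i j hy).trans (by norm_num)
  have c2 : (T t).ncard ≤ 3 := (ncard_pair_le i j ht).trans (by norm_num)
  have n1 : ¬ T t ⊆ T y := h.not_sub (x := y) (y := t) (by rwa [dist_comm]) c1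
  have n2 : ¬ T y ⊆ T t := h.not_sub (x := t) (y := y) hd c2
  obtain ⟨p, hp, hp'⟩ := Set.not_subset.1 n1
  obtain ⟨q, hq, hq'⟩ := Set.not_subset.1 n2
  have e1 : p = i ∨ p = j := ht hp
  have e2 : q = i ∨ q = j := hy hq
  rcases e1 with rfl | rfl
  · rcases e2 with rfl | rfl
    · exact absurd hq hp'
    · right
      refine ⟨Subset.antisymm (fun m hm => ?_) (singleton_subset_iff.2 hq),
        Subset.antisymm (fun m hm => ?_) (singleton_subset_iff.2 hp)⟩
      · rcases hy hm with rfl | rfl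
        · exact absurd hm hp'
        · rfl
      · rcases ht hm with rfl | rfl
        · rfl
        · exact absurd hm hq'
  · rcases e2 with rfl | rfl
    · left
      refine ⟨Subset.antisymm (fun m hm => ?_) (singleton_subset_iff.2 hq),
        Subset.antisymm (fun m hm => ?_) (singleton_subset_iff.2 hp)⟩
      · rcases hy hm with rfl | rfl
        · rfl
        · exact absurd hm hp'
      · rcases ht hm with rfl | rfl
        · exact absurd hm hq'
        · rfl
    · exact absurd hq hp'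

/-- a point with list `{i, j}` and a point at distance one with list `{i, j}`: the palette is single -/
theorem single_or (h : Irr U T) {i j : Fin k} {y t : ℂ} (hy : T y ⊆ {i, j}) (ht : T t ⊆ {i, j})
    (hd : dist y t = 1) : T y = {i} ∨ T y = {j} :=
  (pair_single h hy ht hd).imp And.left And.left

/-- **Curtain rule.** -/
theorem curtain (h : Irr U T) {K : Set ℂ} (hK : IsPreconnected K) {i j : Fin k} (hT : ∀ x ∈ K, T x ⊆ {i, j})
    (hy : ∀ v ∈ K, ∃ y, dist v y = 1 ∧ T y ⊆ {i, j}) :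
    (∀ x ∈ K, T x = {i}) ∨ (∀ x ∈ K, T x = {j}) := by
  have key : ∀ x ∈ K, T x = {i} ∨ T x = {j} := by
    intro x hx
    obtain ⟨y, hd, hyT⟩ := hy x hx
    exact single_or h (hT x hx) hyT hd
  rcases eq_or_ne i j with rfl | hij
  · exact Or.inl fun x hx => (key x hx).elim id id
  by_contra hcon
  push Not at hcon
  obtain ⟨⟨p, hp, hp'⟩, q, hq, hq'⟩ := hcon
  have hpj : T p = {j} := (key p hp).resolve_left hp'
  have hqi : T q = {i} := (key q hq).resolve_right hq'
  obtain ⟨x, hx, hxi, hxj⟩ := isPreconnected_closed_iff.1 hK {x | i ∈ T x} {x | j ∈ T x} (h.closed i) (h.closed j)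
    (fun x hx => (key x hx).imp (fun e => by simp [e]) (fun e => by simp [e]))
    ⟨q, hq, by simp [hqi]⟩ ⟨p, hp, by simp [hpj]⟩
  rcases key x hx with e | e
  · simp only [mem_ofPred_eq, e, mem_singleton_iff] at hxj
    exact hij hxj.symm
  · simp only [mem_ofPred_eq, e, mem_singleton_iff] at hxi
    exact hij hxi

/-- a preconnected set with a point at distance at most one and a point at distance at least one has a point at
distance one -/
theorem exists_dist_one {β : Set ℂ} (hβ : IsPreconnected β) {v p q : ℂ} (hp : p ∈ β) (hq : q ∈ β)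
    (h1 : dist v p ≤ 1) (h2 : 1 ≤ dist v q) : ∃ y ∈ β, dist v y = 1 := by
  have hc : ContinuousOn (fun y => dist v y) β := (continuous_const.dist continuous_id).continuousOn
  obtain ⟨y, hy, e⟩ := hβ.intermediate_value hp hq hc ⟨h1, h2⟩
  exact ⟨y, hy, e⟩

/-- **Curtain rule** with a second connected set `β` (also `β = K`). -/
theorem curtain' (h : Irr U T) {K β : Set ℂ} (hK : IsPreconnected K) (hβ : IsPreconnected β) {i j : Fin k}
    (hT : ∀ x ∈ K, T x ⊆ {i, j}) (hTβ : ∀ x ∈ β, T x ⊆ {i, j})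
    (hcr : ∀ v ∈ K, (∃ p ∈ β, dist v p ≤ 1) ∧ ∃ q ∈ β, 1 ≤ dist v q) :
    (∀ x ∈ K, T x = {i}) ∨ (∀ x ∈ K, T x = {j}) := by
  refine curtain h hK hT fun v hv => ?_
  obtain ⟨⟨p, hp, h1⟩, q, hq, h2⟩ := hcr v hv
  obtain ⟨y, hy, e⟩ := exists_dist_one hβ hp hq h1 h2
  exact ⟨y, e, hTβ y hy⟩

/-- two curtains which meet the unit circles about each other's points: both are single, and opposite -/
theorem curtain_two (h : Irr U T) {K β : Set ℂ} (hK : IsPreconnected K) (hβ : IsPreconnected β) {i j : Fin k}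
    (hne : K.Nonempty) (hT : ∀ x ∈ K, T x ⊆ {i, j}) (hTβ : ∀ x ∈ β, T x ⊆ {i, j})
    (hcr : ∀ v ∈ K, ∃ y ∈ β, dist v y = 1) (hcr' : ∀ y ∈ β, ∃ v ∈ K, dist y v = 1) :
    ((∀ x ∈ K, T x = {i}) ∧ ∀ y ∈ β, T y = {j}) ∨ ((∀ x ∈ K, T x = {j}) ∧ ∀ y ∈ β, T y = {i}) := by
  have h1 := curtain h hK hT fun v hv => by
    obtain ⟨y, hy, e⟩ := hcr v hv
    exact ⟨y, e, hTβ y hy⟩
  have h2 := curtain h hβ hTβ fun v hv => by
    obtain ⟨y, hy, e⟩ := hcr' v hv
    exact ⟨y, e, hT y hy⟩
  obtain ⟨v, hv⟩ := hne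
  obtain ⟨y, hy, e⟩ := hcr v hv
  have h3 := pair_single h (hT v hv) (hTβ y hy) e
  rcases h1 with h1 | h1
  · left
    refine ⟨h1, ?_⟩
    rcases h2 with h2 | h2
    · rcases h3 with h3 | h3
      · intro w hw
        rw [h2 w hw, ← h2 y hy, h3.2]
      · intro w hw
        have e1 : ({j} : Set (Fin k)) = {i} := by rw [← h3.1, h1 v hv]
        rw [h2 w hw, e1]
    · exact h2
  · right
    refine ⟨h1, ?_⟩
    rcases h2 with h2 | h2
    · exact h2
    · rcases h3 with h3 | h3
      · intro w hw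
        have e1 : ({i} : Set (Fin k)) = {j} := by rw [← h3.1, h1 v hv]
        rw [h2 w hw, e1]
      · intro w hw
        rw [h2 w hw, ← h2 y hy, h3.2]

/-- **rigid shift**: a connected set and its translate by a unit vector, both with list `{i, j}` -/
theorem curtain_shift (h : Irr U T) {K : Set ℂ} (hK : IsPreconnected K) (hne : K.Nonempty) {i j : Fin k} {v : ℂ}
    (hv : ‖v‖ = 1) (hT : ∀ x ∈ K, T x ⊆ {i, j}) (hT' : ∀ x ∈ K, T (x + v) ⊆ {i, j}) :
    ((∀ x ∈ K, T x = {i}) ∧ ∀ x ∈ K, T (x + v) = {j}) ∨ ((∀ x ∈ K, T x = {j}) ∧ ∀ x ∈ K, T (x + v) = {i}) := by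
  have hd : ∀ x : ℂ, dist x (x + v) = 1 := fun x => by
    rw [dist_eq_norm, show x - (x + v) = -v by ring, norm_neg, hv]
  have hβ : IsPreconnected ((fun x => x + v) '' K) := hK.image _ (by fun_prop)
  have := curtain_two h hK hβ hne hT (by rintro _ ⟨x, hx, rfl⟩; exact hT' x hx)
    (fun x hx => ⟨x + v, ⟨x, hx, rfl⟩, hd x⟩)
    (by rintro _ ⟨x, hx, rfl⟩; exact ⟨x, hx, by rw [dist_comm]; exact hd x⟩)
  refine this.imp (fun g => ⟨g.1, fun x hx => g.2 _ ⟨x, hx, rfl⟩⟩) (fun g => ⟨g.1, fun x hx => g.2 _ ⟨x, hx, rfl⟩⟩)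

/-- a single palette is in the open set -/
theorem mem_of_eq (h : Irr U T) {x : ℂ} {i : Fin k} (hx : T x = {i}) : x ∈ U i := h.mem_of_single hx.subset

/-- the points of `U i` : no `i` at distance one -/
theorem notMem_of_eq (h : Irr U T) {x y : ℂ} {i : Fin k} (hx : T x = {i}) (hd : dist x y = 1) : i ∉ Pal U y :=
  h.mx.notMem' (mem_of_eq h hx) hd

theorem notMem_T_of_eq (h : Irr U T) {x y : ℂ} {i : Fin k} (hx : T x = {i}) (hd : dist x y = 1) : i ∉ T y :=
  fun hi => notMem_of_eq h hx hd (h.sub y hi)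

/-- **swap, arc form**: `V` has the colours `i, j`, `y ∈ S(V)` has its list in `{i, j}`: `T = {i, j}` on `S(V)` near
`y` -/
theorem swap_arc (h : Irr U T) {i j : Fin k} {V y : ℂ} (hi : i ∈ T V) (hj : j ∈ T V)
    (hy : T y ⊆ {i, j}) : ∀ᶠ q in 𝓝[sphere V 1] y, T q = {i, j} := by
  have h1 : ∀ᶠ q in 𝓝[sphere V 1] y, T q ⊆ {i, j} := by
    filter_upwards [mem_nhdsWithin_of_mem_nhds (h.nhd y)] with q hq
    exact hq.trans hy
  filter_upwards [h1, self_mem_nhdsWithin] with q hq hqV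
  have hqV' : dist q V = 1 := hqV
  refine Subset.antisymm hq ?_
  obtain ⟨m, hm⟩ := h.ne q
  have ni : T q ≠ {i} := fun e => notMem_T_of_eq h e hqV' hi
  have nj : T q ≠ {j} := fun e => notMem_T_of_eq h e hqV' hj
  intro l hl
  by_contra hcon
  rcases hl with rfl | rfl
  · -- `l = i`
    have : T q = {j} := by
      refine Subset.antisymm (fun m hm => ?_) ?_
      · rcases hq hm with rfl | rfl
        · exact absurd hm hcon
        · rfl
      · rcases hq hm with rfl | rfl
        · exact absurd hm hcon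
        · exact singleton_subset_iff.2 hm
    exact nj this
  · have : T q = {i} := by
      refine Subset.antisymm (fun m hm => ?_) ?_
      · rcases hq hm with rfl | rfl
        · rfl
        · exact absurd hm hcon
      · rcases hq hm with rfl | rfl
        · exact singleton_subset_iff.2 hm
        · exact absurd hm hcon
    exact ni this

/-- four colours at such a point -/
theorem swap_four (h : Irr U T) {i j : Fin k} {V y : ℂ} (hi : i ∈ T V) (hj : j ∈ T V) (hd : dist y V = 1)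
    (hy : T y ⊆ {i, j}) : 4 ≤ (T V).ncard := by
  by_contra hcon
  refine h.not_sub (x := V) (y := y) hd (by omega) (hy.trans ?_)
  rintro m (rfl | rfl)
  · exact hi
  · exact hj

/-- **swap**: near `y` on `S(V)` no circle carries `i` or `j` at a point other than `V` and its antipode -/
theorem swap_near (h : Irr U T) {i j : Fin k} {V y : ℂ} (hi : i ∈ T V) (hj : j ∈ T V) (hd : dist y V = 1)
    (hy : T y ⊆ {i, j}) : ∀ᶠ q in 𝓝[sphere V 1] y, ∀ t, dist q t = 1 → t ≠ V → t + V ≠ 2 * q →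
      i ∉ Pal U t ∧ j ∉ Pal U t := by
  have h1 := swap_arc h hi hj hy
  obtain ⟨W, hW, hWo, hyW⟩ := _root_.mem_nhds_iff.1 (mem_nhdsWithin_iff_exists_mem_nhds_inter.1 h1).choose_spec.1
  have hW' : ∀ q ∈ W, q ∈ sphere V (1 : ℝ) → T q = {i, j} := fun q hq hqV =>
    (mem_nhdsWithin_iff_exists_mem_nhds_inter.1 h1).choose_spec.2 ⟨hW hq, hqV⟩
  filter_upwards [mem_nhdsWithin_of_mem_nhds (hWo.mem_nhds hyW), self_mem_nhdsWithin] with q hq hqV t hqt htV htV'
  have hev : ∀ᶠ q' in 𝓝[sphere V 1] q, T q' = {i, j} := by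
    filter_upwards [mem_nhdsWithin_of_mem_nhds (hWo.mem_nhds hq), self_mem_nhdsWithin] with q' a b
    exact hW' q' a b
  have key : ∀ l ∈ ({i, j} : Set (Fin k)), l ∉ Pal U t := by
    intro l hl hlt
    rcases h.mx.partner_line (u := V) (p := q) (t := l) hqV (hev.mono fun q' hq' => h.sub q' (hq' ▸ hl)) hqt hlt with
      e | e
    · exact htV e
    · exact htV' e
  exact ⟨key i (Or.inl rfl), key j (Or.inr rfl)⟩

/-- **swap**, at `y` itself -/
theorem swap (h : Irr U T) {i j : Fin k} {V y t : ℂ} (hi : i ∈ T V) (hj : j ∈ T V) (hd : dist y V = 1)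
    (hy : T y ⊆ {i, j}) (ht : dist y t = 1) (htV : t ≠ V) (htV' : t + V ≠ 2 * y) : i ∉ Pal U t ∧ j ∉ Pal U t :=
  (swap_near h hi hj hd hy).self_of_nhdsWithin (show y ∈ sphere V (1 : ℝ) from hd) t ht htV htV'

/-- **along a connected set of swap candidates**: `K` connected, every `V ∈ K` has a colour of `{i, j}`, and no `V`
in `K` has both: then one colour on all of `K` -/
theorem mono_of_no_both (h : Irr U T) {K : Set ℂ} (hK : IsPreconnected K) {i j : Fin k}
    (hc : ∀ V ∈ K, i ∈ T V ∨ j ∈ T V) (hn : ∀ V ∈ K, ¬ (i ∈ T V ∧ j ∈ T V)) :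
    (∀ V ∈ K, i ∈ T V) ∨ ∀ V ∈ K, j ∈ T V := by
  by_contra hcon
  push Not at hcon
  obtain ⟨⟨p, hp, hp'⟩, q, hq, hq'⟩ := hcon
  have hpj := (hc p hp).resolve_left hp'
  have hqi := (hc q hq).resolve_right hq'
  obtain ⟨x, hx, hxi, hxj⟩ := isPreconnected_closed_iff.1 hK {x | i ∈ T x} {x | j ∈ T x} (h.closed i) (h.closed j)
    (fun x hx => hc x hx) ⟨q, hq, hqi⟩ ⟨p, hp, hpj⟩
  exact hn x hx ⟨hxi, hxj⟩

/-- **attached sets** (317): `Γ` a connected `i`-set through `z`; a point `w` farther than one from `z` and nearer than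
one to a point of `Γ` has not the colour `i` -/
theorem att (h : Irr U T) {Γ : Set ℂ} (hΓ : IsPreconnected Γ) {i : Fin k} (hi : ∀ x ∈ Γ, i ∈ T x) {z x w : ℂ}
    (hz : z ∈ Γ) (hx : x ∈ Γ) (h1 : 1 < dist w z) (h2 : dist w x < 1) : i ∉ T w := fun hw =>
  crossing h hΓ hi hw hx hz (by rwa [dist_comm]) (by rwa [dist_comm])

/-- the union of two connected `i`-sets which meet is a connected `i`-set -/
theorem union_i {Γ Δ : Set ℂ} (hΓ : IsPreconnected Γ) (hΔ : IsPreconnected Δ) {i : Fin k}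
    (hi : ∀ x ∈ Γ, i ∈ T x) (hi' : ∀ x ∈ Δ, i ∈ T x) (hne : (Γ ∩ Δ).Nonempty) :
    IsPreconnected (Γ ∪ Δ) ∧ ∀ x ∈ Γ ∪ Δ, i ∈ T x := by
  obtain ⟨x, h1, h2⟩ := hne
  exact ⟨hΓ.union x h1 h2 hΔ, fun y hy => hy.elim (hi y) (hi' y)⟩

/-- the closure of a connected `i`-set is a connected `i`-set -/
theorem closure_i (h : Irr U T) {Γ : Set ℂ} (hΓ : IsPreconnected Γ) {i : Fin k} (hi : ∀ x ∈ Γ, i ∈ T x) :
    IsPreconnected (closure Γ) ∧ ∀ x ∈ closure Γ, i ∈ T x :=
  ⟨hΓ.closure, fun _ hx => (h.closed i).closure_subset_iff.2 (fun y hy => hi y hy) hx⟩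

end Vale.Agent.P032.H877
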